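import Vale.Agent.P251CV.Adj
import Vale.Agent.P251CI.Q

/-!
# Orthogonal spectra as a reflective subcategory of the continuous functors
-/

open CategoryTheory MonoidalCategory Topology OnePoint Limits

namespace Vale.Agent.P251CV

open Vale.Agent.P251.H Vale.Agent.P251CA Vale.Agent.P251CA.CF Vale.Agent.P251C
  Vale.Agent.P251CH
open Vale.Agent.P251CI (q up dn)
open Vale.Agent.P251CJ (eh)

/-- the Euclidean levels of `q X` -/
noncomputable def qE : QE q where
  e _ n := ⟨up (Sp0.euc n), dn (a := Sp0.euc n), P251CI.dn_up (Sp0.euc n), P251CI.up_dn⟩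
  e_pt _ n := P251CI.up_pt (Sp0.euc n)
  plot _ n _ _ := ⟨fun h => (P251CI.q_plot_iff.1 h).congr fun _ => P251CI.dn_up (Sp0.euc n) _,
    P251CI.up_plot (Sp0.euc n)⟩
  act _ _ _ f x := P251CI.act_eh_up f x
  map f n x := P251CI.fn_up f (Sp0.euc n) x

/-- **The reflection.** -/
noncomputable def R : Vale.Agent.P251CR.Rfl CF OSp := qE.refl

theorem R_r : R.r = rho := rfl

theorem R_q : R.q = q := rfl

/-- the adjunction -/
noncomputable def adj : rho ⊣ q := qE.adj

theorem R_adj : R.adj = adj := rfl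

theorem fn_adj_unit {X : CF} {n : ℕ} (x : OnePoint (X.obj (Sp0.euc n))) :
    fn (adj.unit.app X) x = up (X := rho.obj X) (Sp0.euc n) (rk x) := qE.fn_unit x

theorem adj_counit_rk {Z : OSp} {n : ℕ} (x : OnePoint ((q.obj Z).obj (Sp0.euc n))) :
    (adj.counit.app Z).app n (rk x) = dn x := rfl

theorem fn_adj_homEquiv {X : CF} {Z : OSp} (g : rho.obj X ⟶ Z) {n : ℕ}
    (x : OnePoint (X.obj (Sp0.euc n))) :
    fn (adj.homEquiv X Z g) x = up (Sp0.euc n) (g.app n (rk x)) :=
  (congrArg (fun u => fn u x) (qE.adj_homEquiv g)).trans (qE.fn_up g x)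

theorem adj_homEquiv_symm_rk {X : CF} {Z : OSp} (f : X ⟶ q.obj Z) {n : ℕ}
    (x : OnePoint (X.obj (Sp0.euc n))) :
    ((adj.homEquiv X Z).symm f).app n (rk x) = dn (fn f x) :=
  congrArg (fun u : rho.obj X ⟶ Z => u.app n (rk x)) (qE.adj_homEquiv_symm f)

theorem isIso_adj_unit_iff (X : CF) : IsIso (adj.unit.app X) ↔ GoodP X := qE.isIso_unit_iff X

end Vale.Agent.P251CV
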