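import Vale.Agent.P251CA.Base
import Vale.Agent.P251CA.Crd
import Vale.Agent.P251CD.Wedge
import Vale.Agent.P251CH.Ten

/-!
# Levelwise saturated weak Hausdorff continuous functors
-/

open CategoryTheory MonoidalCategory Topology OnePoint Limits

namespace Vale.Agent.P251CV

open Vale.Agent.P251.H Vale.Agent.P251CA Vale.Agent.P251CA.CF Vale.Agent.P251CD
  Vale.Agent.P251CH
open Vale.Agent.P251.G (LC)

theorem good_of_iso {A B : PQ} (e : A ≅ B) (h : Sat A ∧ WHp A) : Sat B ∧ WHp B :=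
  ⟨h.1.of_iso e.symm, h.2.of_iso e.symm⟩

theorem goodP_of_iso {X Y : CF} (e : X ≅ Y) (h : GoodP X) : GoodP Y :=
  fun a => good_of_iso ((ev a).mapIso e) (h a)

/-- It suffices to test the Euclidean levels. -/
theorem goodP_of_euc {X : CF}
    (h : ∀ n, Sat (X.obj (Sp0.euc n)) ∧ WHp (X.obj (Sp0.euc n))) : GoodP X :=
  fun a => good_of_iso (X.toFunctor.mapIso a.toEuc.symm) (h a.dim)

theorem goodP_jC (K : LC) : GoodP (jC.obj K) := fun a =>
  good_of_iso (PQ.μLC K a.s).symm ⟨sat_ofLC _, whp_ofLC _⟩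

theorem goodP_J (K : LC) : GoodP ((StabInput.J CF).obj K) := goodP_jC K

theorem goodP_cofan {ι : Type} {X : Discrete ι ⥤ CF} {c : Cocone X} (hc : IsColimit c)
    (h : ∀ i, GoodP (X.obj i)) : GoodP c.pt := fun a =>
  wedge (isColimitOfPreserves (ev a) hc) (fun i => h i a)

theorem goodP_sigma {ι : Type} (X : ι → CF) (h : ∀ i, GoodP (X i)) : GoodP (∐ X) :=
  goodP_cofan (colimit.isColimit (Discrete.functor X)) (fun i => h i.as)

end Vale.Agent.P251CV
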