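import Vale.Agent.P251CV.Rho
import Vale.Agent.P251CV.Good
import Vale.Agent.P251CR.Mon

/-!
# The reflection of continuous functors onto orthogonal spectra
-/

open CategoryTheory MonoidalCategory Topology OnePoint Limits

namespace Vale.Agent.P251CV

open Vale.Agent.P251.H Vale.Agent.P251CA Vale.Agent.P251CA.CF Vale.Agent.P251CD
  Vale.Agent.P251CW Vale.Agent.P251C Vale.Agent.P251CH
open Vale.Agent.P251CJ (eh Ch)

/-- The Euclidean levels of `q X` are the levels of `X`. -/
structure QE (q : OSp ⥤ CF) where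
  /-- the bijection -/
  e : ∀ (X : OSp) (n : ℕ), X.sp n ≃ OnePoint ((q.obj X).obj (Sp0.euc n))
  e_pt : ∀ X n, e X n (X.pt n) = ∞
  plot : ∀ (X : OSp) (n : ℕ) (K : CH) (g : K → X.sp n),
    ((q.obj X).obj (Sp0.euc n)).plot K (fun k => e X n (g k)) ↔ Continuous g
  act : ∀ (X : OSp) (m n : ℕ) (f : OnePoint (Emb m n)) (x : X.sp m),
    (q.obj X).act (eh f) (e X m x) = e X n (X.act f x)
  map : ∀ {X Y : OSp} (f : X ⟶ Y) (n : ℕ) (x : X.sp n),
    fn (q.map f) (e X n x) = e Y n (f.app n x)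

theorem exists_eh {m n : ℕ} (w : Sp0.euc m ⟶ Sp0.euc n) : ∃ f : OnePoint (Emb m n), eh f = w :=
  (Ch.homP_bijective (Ch.euc m) (Ch.euc n)).2 w

/-- Morphisms of continuous functors are determined by their Euclidean levels. -/
theorem cf_ext_euc {X Y : CF} {f g : X ⟶ Y}
    (h : ∀ n (x : OnePoint (X.obj (Sp0.euc n))), fn f x = fn g x) : f = g :=
  hom_ext fun a x => by
    have e := congrArg (Y.act a.toEuc.inv) (h a.dim (X.act a.toEuc.hom x))
    rwa [← fn_act, ← fn_act, act_hom_inv] at e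

/-- Morphisms of continuous functors given on the Euclidean levels. -/
noncomputable def homEuc {X Y : CF}
    (φ : ∀ n, OnePoint (X.obj (Sp0.euc n)) → OnePoint (Y.obj (Sp0.euc n)))
    (h0 : ∀ n, φ n ∞ = ∞)
    (hp : ∀ n (K : CH) (p : K → OnePoint (X.obj (Sp0.euc n))), (X.obj (Sp0.euc n)).plot K p →
      (Y.obj (Sp0.euc n)).plot K (fun k => φ n (p k)))
    (hn : ∀ m n (w : Sp0.euc m ⟶ Sp0.euc n) (x : OnePoint (X.obj (Sp0.euc m))),
      φ n (X.act w x) = Y.act w (φ m x)) : X ⟶ Y :=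
  homMk (fun a x => Y.act a.toEuc.inv (φ a.dim (X.act a.toEuc.hom x)))
    (fun a => by rw [act_infty, h0, act_infty])
    (fun a K x hx => Y.act_plot' _ (hp _ K _ (X.act_plot' _ hx)))
    (fun {a b} w x => by
      have e : X.act b.toEuc.hom (X.act w x) =
          X.act (a.toEuc.inv ≫ w ≫ b.toEuc.hom) (X.act a.toEuc.hom x) := by
        rw [act_comp, act_hom_inv, act_comp]
      rw [e, hn, act_comp, act_comp, act_hom_inv])

theorem fn_homEuc {X Y : CF}
    (φ : ∀ n, OnePoint (X.obj (Sp0.euc n)) → OnePoint (Y.obj (Sp0.euc n)))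
    (h0 : ∀ n, φ n ∞ = ∞)
    (hp : ∀ n (K : CH) (p : K → OnePoint (X.obj (Sp0.euc n))), (X.obj (Sp0.euc n)).plot K p →
      (Y.obj (Sp0.euc n)).plot K (fun k => φ n (p k)))
    (hn : ∀ m n (w : Sp0.euc m ⟶ Sp0.euc n) (x : OnePoint (X.obj (Sp0.euc m))),
      φ n (X.act w x) = Y.act w (φ m x)) {n : ℕ} (x : OnePoint (X.obj (Sp0.euc n))) :
    fn (homEuc φ h0 hp hn) x = φ n x := by
  change Y.act (Sp0.euc n).toEuc.inv (φ n (X.act (Sp0.euc n).toEuc.hom x)) = _
  rw [Sp0.toEuc_euc_hom, Sp0.toEuc_euc_inv]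
  exact (Y.act_id _).trans (congrArg (φ n) (X.act_id x))

/-- A morphism which is an isomorphism on the Euclidean levels is an isomorphism. -/
theorem isIso_of_euc {X Y : CF} (f : X ⟶ Y)
    (ψ : ∀ n, OnePoint (Y.obj (Sp0.euc n)) → OnePoint (X.obj (Sp0.euc n)))
    (hp : ∀ n (K : CH) (p : K → OnePoint (Y.obj (Sp0.euc n))), (Y.obj (Sp0.euc n)).plot K p →
      (X.obj (Sp0.euc n)).plot K (fun k => ψ n (p k)))
    (h1 : ∀ n x, ψ n (fn f x) = x) (h2 : ∀ n y, fn f (ψ n y) = y) : IsIso f := by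
  have h0 : ∀ n, ψ n ∞ = ∞ := fun n => by
    have := h1 n ∞
    rwa [fn_infty] at this
  have hn : ∀ m n (w : Sp0.euc m ⟶ Sp0.euc n) (y : OnePoint (Y.obj (Sp0.euc m))),
      ψ n (Y.act w y) = X.act w (ψ m y) := fun m n w y => by
    rw [← h1 n (X.act w (ψ m y)), fn_act, h2]
  refine ⟨homEuc ψ h0 hp hn, cf_ext_euc fun n x => ?_, cf_ext_euc fun n y => ?_⟩
  · rw [fn_comp, fn_homEuc, h1, fn_id]
  · rw [fn_comp, fn_homEuc, h2, fn_id]

namespace QE

variable {q : OSp ⥤ CF} (d : QE q)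

theorem e_symm_infty (X : OSp) (n : ℕ) : (d.e X n).symm ∞ = X.pt n :=
  (d.e X n).symm_apply_eq.2 (d.e_pt X n).symm

theorem cont_symm {X : OSp} {n : ℕ} {K : CH} {p : K → OnePoint ((q.obj X).obj (Sp0.euc n))}
    (hp : ((q.obj X).obj (Sp0.euc n)).plot K p) : Continuous (fun k => (d.e X n).symm (p k)) :=
  (d.plot X n K _).1 (by simpa only [Equiv.apply_symm_apply] using hp)

theorem symm_act {X : OSp} {m n : ℕ} (f : OnePoint (Emb m n))
    (x : OnePoint ((q.obj X).obj (Sp0.euc m))) :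
    (d.e X n).symm ((q.obj X).act (eh f) x) = X.act f ((d.e X m).symm x) := by
  rw [Equiv.symm_apply_eq, ← d.act, Equiv.apply_symm_apply]

theorem symm_map {X Y : OSp} (f : X ⟶ Y) {n : ℕ} (x : OnePoint ((q.obj X).obj (Sp0.euc n))) :
    (d.e Y n).symm (fn (q.map f) x) = f.app n ((d.e X n).symm x) := by
  rw [Equiv.symm_apply_eq, ← d.map, Equiv.apply_symm_apply]

/-- the transpose of a morphism out of `rho X` -/
noncomputable def up {X : CF} {Z : OSp} (g : rho.obj X ⟶ Z) : X ⟶ q.obj Z :=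
  homEuc (fun n x => d.e Z n (g.app n (rk x)))
    (fun n => (congrArg (d.e Z n) (g.pt n)).trans (d.e_pt Z n))
    (fun n K _ hp => (d.plot Z n K _).2 ((g.app n).continuous.comp (rk_plot hp)))
    (fun m n w x => by
      obtain ⟨f, rfl⟩ := exists_eh w
      rw [d.act, ← osp_nat, act_rk])

theorem fn_up {X : CF} {Z : OSp} (g : rho.obj X ⟶ Z) {n : ℕ}
    (x : OnePoint (X.obj (Sp0.euc n))) : fn (d.up g) x = d.e Z n (g.app n (rk x)) :=
  fn_homEuc _ _ _ _ x

/-- the transpose of a morphism into `q Z` -/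
noncomputable def down {X : CF} {Z : OSp} (f : X ⟶ q.obj Z) : rho.obj X ⟶ Z :=
  rhoDesc (fun n x => (d.e Z n).symm (fn f x))
    (fun n => by rw [fn_infty, d.e_symm_infty])
    (fun _ _ _ hp => d.cont_symm (fn_plot f hp))
    (fun m n e x => by rw [fn_act, d.symm_act])

theorem down_rk {X : CF} {Z : OSp} (f : X ⟶ q.obj Z) {n : ℕ}
    (x : OnePoint (X.obj (Sp0.euc n))) : (d.down f).app n (rk x) = (d.e Z n).symm (fn f x) := rfl

/-- **The adjunction.** -/
noncomputable def adj : rho ⊣ q := Adjunction.mkOfHomEquiv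
  { homEquiv := fun X Z =>
      { toFun := d.up
        invFun := d.down
        left_inv := fun g => rho_hom_ext fun n x => by
          rw [down_rk, fn_up, Equiv.symm_apply_apply]
        right_inv := fun f => cf_ext_euc fun n x => by
          rw [fn_up, down_rk, Equiv.apply_symm_apply] }
    homEquiv_naturality_left_symm := fun f g => rho_hom_ext fun n x => rfl
    homEquiv_naturality_right := fun f g => cf_ext_euc fun n x => by
      change fn (d.up (f ≫ g)) x = fn (q.map g) (fn (d.up f) x)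
      rw [fn_up, fn_up, d.map]
      rfl }

theorem adj_homEquiv {X : CF} {Z : OSp} (g : rho.obj X ⟶ Z) :
    d.adj.homEquiv X Z g = d.up g := by
  rw [adj, Adjunction.mkOfHomEquiv_homEquiv]
  rfl

theorem adj_homEquiv_symm {X : CF} {Z : OSp} (f : X ⟶ q.obj Z) :
    (d.adj.homEquiv X Z).symm f = d.down f := by
  rw [adj, Adjunction.mkOfHomEquiv_homEquiv]
  rfl

theorem fn_unit {X : CF} {n : ℕ} (x : OnePoint (X.obj (Sp0.euc n))) :
    fn (d.adj.unit.app X) x = d.e (rho.obj X) n (rk x) := d.fn_up (𝟙 (rho.obj X)) x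

theorem counit_rk {Z : OSp} {n : ℕ} (x : OnePoint ((q.obj Z).obj (Sp0.euc n))) :
    (d.adj.counit.app Z).app n (rk x) = (d.e Z n).symm x := rfl

include d in
theorem faithful : q.Faithful :=
  ⟨fun {X Y} f g h => osp_ext fun n x => (d.e Y n).injective (by rw [← d.map, ← d.map, h])⟩

theorem cont_of_plot {X : OSp} {n : ℕ} {T : Type} [TopologicalSpace T] {φ : X.sp n → T}
    (h : ∀ (K : CH) (g : K → X.sp n), Continuous g → Continuous (fun k => φ (g k))) :
    Continuous φ := by
  have := X.cg n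
  exact continuous_from_compactlyGeneratedSpace φ fun K _ _ _ g hg => h (CH.of K) g hg

include d in
theorem full : q.Full := ⟨fun {X Y} f => ⟨
  { app := fun n => ⟨fun x => (d.e Y n).symm (fn f (d.e X n x)), cont_of_plot fun K g hg =>
      d.cont_symm (fn_plot f ((d.plot X n K g).2 hg))⟩
    pt := fun n => by
      change (d.e Y n).symm (fn f (d.e X n (X.pt n))) = _
      rw [d.e_pt, fn_infty, d.e_symm_infty]
    nat := fun m n e x => by
      change (d.e Y n).symm (fn f (d.e X n _)) = Y.act _ ((d.e Y m).symm (fn f (d.e X m x)))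
      rw [← d.act, fn_act, d.symm_act] },
  cf_ext_euc fun n x => by
    obtain ⟨x, rfl⟩ := (d.e X n).surjective x
    rw [d.map]
    exact (d.e Y n).apply_symm_apply _⟩⟩

theorem cont_e_symm (Z : OSp) (n : ℕ) :
    Continuous (fun x : Tp ((q.obj Z).obj (Sp0.euc n)) => (d.e Z n).symm (un x)) :=
  cont_iff.2 fun _ _ hp => d.cont_symm hp

include d in
theorem goodP_q (Z : OSp) : GoodP (q.obj Z) := goodP_of_euc fun n =>
  ⟨fun K g hg => by
    have := (d.plot Z n K _).2 ((d.cont_e_symm Z n).comp hg)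
    simpa only [Function.comp, Equiv.apply_symm_apply] using this,
   fun K g hg => (osp_wh Z n).of_inj (d.cont_e_symm Z n)
    (fun _ _ h => (d.e Z n).symm.injective h) K g hg⟩

end QE

theorem wh_of_whp {A : PQ} (h : WHp A) : WH (Tp A) := fun K _ _ _ g hg => h (CH.of K) g hg

/-- the inverse of `wmk` for weak Hausdorff `Tp A` -/
def wun' {A : PQ} (h : WHp A) (x : Wq A) : OnePoint A :=
  un (wlift (wh_of_whp h) mk (fun _ _ hp => cont_plot hp) x)

theorem wun'_wmk {A : PQ} (h : WHp A) (x : OnePoint A) : wun' h (wmk x) = x := rfl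

theorem wmk_wun' {A : PQ} (h : WHp A) (x : Wq A) : wmk (wun' h x) = x :=
  wind (p := fun x => wmk (wun' h x) = x) (fun _ => rfl) x

theorem wun'_plot {A : PQ} (h : WHp A) (hs : Sat A) {K : CH} {g : K → Wq A} (hg : Continuous g) :
    A.plot K (fun k => wun' h (g k)) := hs K _ ((cont_wlift _ _ _).comp hg)

namespace QE

variable {q : OSp ⥤ CF} (d : QE q)

/-- **The unit is invertible at the good objects.** -/
theorem isIso_unit {X : CF} (h : GoodP X) : IsIso (d.adj.unit.app X) :=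
  isIso_of_euc _ (fun n y => wun' (h (Sp0.euc n)).2 ((d.e (rho.obj X) n).symm y))
    (fun n _ _ hp => wun'_plot (h (Sp0.euc n)).2 (h (Sp0.euc n)).1 (d.cont_symm hp))
    (fun n x => by
      have e : (d.e (rho.obj X) n).symm (fn (d.adj.unit.app X) x) = rk x := by
        rw [fn_unit]
        exact (d.e (rho.obj X) n).symm_apply_apply _
      exact congrArg (wun' (h (Sp0.euc n)).2) e)
    (fun n y => (d.fn_unit _).trans ((congrArg (d.e (rho.obj X) n)
      (wmk_wun' (h (Sp0.euc n)).2 _)).trans ((d.e (rho.obj X) n).apply_symm_apply y)))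

theorem isIso_unit_iff (X : CF) : IsIso (d.adj.unit.app X) ↔ GoodP X :=
  ⟨fun _ => goodP_of_iso (asIso (d.adj.unit.app X)).symm (d.goodP_q _), d.isIso_unit⟩

/-- **Orthogonal spectra are a reflective subcategory of the continuous functors.** -/
noncomputable def refl : Vale.Agent.P251CR.Rfl CF OSp where
  r := rho
  q := q
  adj := d.adj
  full := d.full
  faithful := d.faithful
  hten X Y := by
    have := d.full
    have := d.faithful
    exact hten_of_good d.adj d.goodP_q (fun _ => d.isIso_unit) X Y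
  hj K := d.isIso_unit (goodP_J K)
  hfin _ X := d.isIso_unit (goodP_sigma _ fun i => d.goodP_q (X i))

theorem refl_r : d.refl.r = rho := rfl

theorem refl_q : d.refl.q = q := rfl

theorem refl_adj : d.refl.adj = d.adj := rfl

end QE

end Vale.Agent.P251CV
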