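import Vale.Agent.P251C.Defs
import Vale.Agent.P251CA.CF
import Vale.Agent.P251CJ.Pair
import Vale.Agent.P251CW.Wq

/-!
# The orthogonal spectrum of a continuous functor: levelwise weak Hausdorff quotients
-/

open CategoryTheory MonoidalCategory Topology OnePoint Limits

namespace Vale.Agent.P251CV

open Vale.Agent.P251.H Vale.Agent.P251CA Vale.Agent.P251CA.CF Vale.Agent.P251CD
  Vale.Agent.P251CW Vale.Agent.P251C
open Vale.Agent.P251CJ (eh Ch)

theorem eh_infty (m n : ℕ) : eh (∞ : OnePoint (Emb m n)) = 0 := Ch.homP_infty _ _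

theorem eh_id {n : ℕ} {e : Emb n n} (h : ∀ s, ap e s = s) :
    eh (e : OnePoint (Emb n n)) = 𝟙 _ := Ch.homP_id _ h

theorem eh_comp {l m n : ℕ} {f : Emb l m} {g : Emb m n} {h : Emb l n}
    (e : ∀ s, ap h s = ap g (ap f s)) :
    eh (h : OnePoint (Emb l n)) = eh (f : OnePoint (Emb l m)) ≫ eh (g : OnePoint (Emb m n)) :=
  Ch.homP_comp _ _ _ e

/-- the orthogonal spectrum of a continuous functor -/
noncomputable def rhoObj (X : CF) : OSp where
  sp n := Wq (X.obj (Sp0.euc n))
  cg _ := inferInstance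
  wh _ K _ _ _ g := wh_Wq _ K g g.continuous
  pt _ := wpt _
  act f x := wmap (X.map (eh f)) x
  cont m n := wmap_par (K := CH.of (OnePoint (Emb m n))) (fun f => X.map (eh f))
    (fun L g p hg hp => X.map_plot L _ p ((Ch.plot_homP_iff _ _).2 hg) hp)
  act_infty m n x := by rw [eh_infty, X.map_zero, wmap_zero]
  act_pt _ _ _ := wmap_wpt _
  act_id n e h x := by rw [eh_id h, X.map_id, wmap_id]
  act_comp l m n f g h e x := by rw [eh_comp e, X.map_comp, wmap_comp]

/-- the morphism of orthogonal spectra given by a morphism of continuous functors -/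
noncomputable def rhoMap {X Y : CF} (f : X ⟶ Y) : rhoObj X ⟶ rhoObj Y where
  app n := ⟨wmap (Hom.app f (Sp0.euc n)), cont_wmap _⟩
  pt _ := wmap_wpt _
  nat m n e x := ((wmap_comp _ _ x).symm.trans
    (congrArg (fun u => wmap u x) (f.naturality (eh (e : OnePoint (Emb m n)))))).trans
      (wmap_comp _ _ x)

theorem osp_ext {X Y : OSp} {f g : X ⟶ Y} (h : ∀ n x, f.app n x = g.app n x) : f = g :=
  OSp.Hom.ext (funext fun n => ContinuousMap.ext (h n))

/-- **The reflection** from continuous functors to orthogonal spectra. -/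
noncomputable def rho : CF ⥤ OSp where
  obj := rhoObj
  map := rhoMap
  map_id _ := osp_ext fun _ x => wmap_id x
  map_comp _ _ := osp_ext fun _ x => wmap_comp _ _ x

/-- the class of a point -/
def rk {X : CF} {n : ℕ} (x : OnePoint (X.obj (Sp0.euc n))) : (rho.obj X).sp n := wmk x

section rk

variable {X Y : CF} {m n : ℕ}

theorem rk_surj : Function.Surjective (rk : OnePoint (X.obj (Sp0.euc n)) → (rho.obj X).sp n) :=
  wmk_surj

@[simp] theorem rk_infty : rk (∞ : OnePoint (X.obj (Sp0.euc n))) = (rho.obj X).pt n := rfl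

@[simp] theorem act_rk (f : OnePoint (Emb m n)) (x : OnePoint (X.obj (Sp0.euc m))) :
    (rho.obj X).act f (rk x) = rk (X.act (eh f) x) := rfl

@[simp] theorem rho_map_rk (f : X ⟶ Y) (x : OnePoint (X.obj (Sp0.euc n))) :
    (rho.map f).app n (rk x) = rk (fn f x) := rfl

theorem rk_plot {K : CH} {p : K → OnePoint (X.obj (Sp0.euc n))}
    (hp : (X.obj (Sp0.euc n)).plot K p) : Continuous (fun k => rk (p k)) := wmk_plot hp

theorem rho_hom_ext {Z : OSp} {f g : rho.obj X ⟶ Z}
    (h : ∀ n (x : OnePoint (X.obj (Sp0.euc n))), f.app n (rk x) = g.app n (rk x)) : f = g :=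
  osp_ext fun n x => by
    obtain ⟨x, rfl⟩ := rk_surj x
    exact h n x

end rk

theorem osp_wh (Z : OSp) (n : ℕ) : WH (Z.sp n) := fun K _ _ _ g hg => Z.wh n K ⟨g, hg⟩

theorem osp_nat {X Y : OSp} (f : X ⟶ Y) {m n : ℕ} (e : OnePoint (Emb m n)) (x : X.sp m) :
    f.app n (X.act e x) = Y.act e (f.app m x) := by
  induction e using OnePoint.rec with
  | infty => rw [X.act_infty, Y.act_infty, f.pt]
  | coe e => exact f.nat m n e x

/-- Morphisms out of `rho X`. -/
noncomputable def rhoDesc {X : CF} {Z : OSp}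
    (φ : ∀ n, OnePoint (X.obj (Sp0.euc n)) → Z.sp n) (h0 : ∀ n, φ n ∞ = Z.pt n)
    (hp : ∀ n (K : CH) (p : K → OnePoint (X.obj (Sp0.euc n))), (X.obj (Sp0.euc n)).plot K p →
      Continuous (fun k => φ n (p k)))
    (hn : ∀ m n (e : Emb m n) (x : OnePoint (X.obj (Sp0.euc m))),
      φ n (X.act (eh (e : OnePoint (Emb m n))) x) = Z.act (.some e) (φ m x)) :
    rho.obj X ⟶ Z where
  app n := ⟨wlift (osp_wh Z n) (φ n) (hp n), cont_wlift _ _ _⟩
  pt := h0
  nat m n e x := by
    obtain ⟨x, rfl⟩ := rk_surj x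
    exact hn m n e x

@[simp] theorem rhoDesc_rk {X : CF} {Z : OSp}
    (φ : ∀ n, OnePoint (X.obj (Sp0.euc n)) → Z.sp n) (h0 : ∀ n, φ n ∞ = Z.pt n)
    (hp : ∀ n (K : CH) (p : K → OnePoint (X.obj (Sp0.euc n))), (X.obj (Sp0.euc n)).plot K p →
      Continuous (fun k => φ n (p k)))
    (hn : ∀ m n (e : Emb m n) (x : OnePoint (X.obj (Sp0.euc m))),
      φ n (X.act (eh (e : OnePoint (Emb m n))) x) = Z.act (.some e) (φ m x))
    {n : ℕ} (x : OnePoint (X.obj (Sp0.euc n))) :
    (rhoDesc φ h0 hp hn).app n (rk x) = φ n x := rfl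

end Vale.Agent.P251CV
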